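import Vale.Agent.P290L37.Defs
import Mathlib.Geometry.Manifold.PartitionOfUnity
import Mathlib.Geometry.Manifold.VectorBundle.Hom
import Mathlib.LinearAlgebra.Complex.FiniteDimensional
import Mathlib.Analysis.InnerProductSpace.PiL2

/-! Existence of Hermitian metrics, and continuity of the distance. -/

set_option linter.all false

namespace Vale.Agent.P290K89

open scoped Manifold ContDiff ENNReal Topology
open TopologicalSpace Set Vale.Agent.P290L

noncomputable section

section Real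

variable {E : Type} [NormedAddCommGroup E] [NormedSpace ℝ E] [FiniteDimensional ℝ E]
  {X : Type} [TopologicalSpace X] [ChartedSpace E X]

theorem bdd_of_pos (g : E →L[ℝ] E →L[ℝ] ℝ) (hp : ∀ v, v ≠ 0 → 0 < g v v) :
    Bornology.IsVonNBounded ℝ {v : E | g v v < 1} := by
  have hpr : ProperSpace E := FiniteDimensional.proper ℝ E
  rw [NormedSpace.isVonNBounded_iff]
  rcases (Metric.sphere (0 : E) 1).eq_empty_or_nonempty with h0 | h0
  · refine (Metric.isBounded_closedBall (x := (0 : E)) (r := 0)).subset fun v _ => ?_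
    by_contra hv
    have hv0 : v ≠ 0 := by simpa using hv
    have : (‖v‖⁻¹ • v) ∈ Metric.sphere (0 : E) 1 := by
      simp [norm_smul, norm_ne_zero_iff.2 hv0]
    rw [h0] at this
    exact this
  obtain ⟨u, hu, hmin⟩ := (isCompact_sphere (0 : E) 1).exists_isMinOn h0
    (f := fun v => g v v) (by fun_prop)
  have hu0 : u ≠ 0 := by
    rintro rfl
    simp at hu
  have hc := hp u hu0
  refine (Metric.isBounded_closedBall (x := (0 : E)) (r := 1 + (g u u)⁻¹)).subset fun v hv => ?_
  rw [mem_closedBall_zero_iff]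
  by_cases hv0 : v = 0
  · rw [hv0, norm_zero]
    positivity
  have hn : 0 < ‖v‖ := norm_pos_iff.2 hv0
  have h1 : (‖v‖⁻¹ • v) ∈ Metric.sphere (0 : E) 1 := by
    simp [norm_smul, hn.ne']
  have h2 : g u u ≤ ‖v‖⁻¹ * (‖v‖⁻¹ * g v v) := by
    have := hmin h1
    simpa [map_smul] using this
  have h3 : g v v < 1 := hv
  have h4 : g u u * ‖v‖ ^ 2 ≤ 1 := by
    have : ‖v‖⁻¹ * (‖v‖⁻¹ * g v v) * ‖v‖ ^ 2 = g v v := by field_simp
    nlinarith [mul_le_mul_of_nonneg_right h2 (sq_nonneg ‖v‖)]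
  have h5 : ‖v‖ ^ 2 ≤ (g u u)⁻¹ := by
    rw [inv_eq_one_div, le_div_iff₀ hc]
    linarith
  nlinarith [sq_nonneg (‖v‖ - 1)]

theorem exists_inv [IsManifold 𝓘(ℝ, E) ∞ X] [T2Space X] [CompactSpace X] (j : E → E)
    (h₀ : E →L[ℝ] E →L[ℝ] ℝ) (hs : ∀ v w, h₀ v w = h₀ w v) (hp : ∀ v, v ≠ 0 → 0 < h₀ v v)
    (hJ : ∀ v w, h₀ (j v) (j w) = h₀ v w)
    (hT : ∀ a y : X, y ∈ (chartAt E a).source → ∀ v : E,
      tangentCoordChange 𝓘(ℝ, E) y a y (j v) = j (tangentCoordChange 𝓘(ℝ, E) y a y v)) :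
    ∃ g : Bundle.ContMDiffRiemannianMetric 𝓘(ℝ, E) ∞ E (TangentSpace 𝓘(ℝ, E) : X → Type),
      ∀ (x : X) (v w : E), g.inner x (j v) (j w) = g.inner x v w := by
  obtain ⟨s, hs⟩ := exists_contMDiffSection_forall_mem_convex_of_local (n := ⊤) 𝓘(ℝ, E)
    (F_fiber := E →L[ℝ] E →L[ℝ] ℝ)
    (fun x : X => TangentSpace 𝓘(ℝ, E) x →L[ℝ] TangentSpace 𝓘(ℝ, E) x →L[ℝ] ℝ)
    (fun x => {g | (∀ v w, g v w = g w v) ∧ (∀ v, v ≠ 0 → 0 < g v v) ∧
      ∀ v w : E, g (j v) (j w) = g v w})
    (fun x g hg g' hg' a b ha hb hab => by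
      refine ⟨fun v w => ?_, fun v hv => ?_, fun v w => ?_⟩
      · change a * g v w + b * g' v w = a * g w v + b * g' w v
        rw [hg.1 v w, hg'.1 v w]
      · have h1 := hg.2.1 v hv
        have h2 := hg'.2.1 v hv
        change 0 < a * g v v + b * g' v v
        rcases ha.eq_or_lt with k | k
        · have : b = 1 := by linarith
          rw [← k, this]
          linarith
        · nlinarith [mul_pos k h1, mul_nonneg hb h2.le]
      · change a * g (j v) (j w) + b * g' (j v) (j w) = a * g v w + b * g' v w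
        rw [hg.2.2 v w, hg'.2.2 v w])
    (fun a => by
      let T : X → E →L[ℝ] E := fun y =>
        (trivializationAt E (TangentSpace 𝓘(ℝ, E) : X → Type) a).continuousLinearMapAt ℝ y
      refine ⟨(chartAt E a).source, chart_source_mem_nhds E a,
        fun y => (h₀.bilinearComp (T y) (T y) : E →L[ℝ] E →L[ℝ] ℝ), ?_,
          fun y hy => ⟨fun v w => hs _ _, fun v hv => hp _ fun h4 => hv ?_, fun v w => ?_⟩⟩
      · refine (Bundle.Trivialization.contMDiffOn_section_iff (F := E →L[ℝ] E →L[ℝ] ℝ)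
          (E := fun x : X => TangentSpace 𝓘(ℝ, E) x →L[ℝ] TangentSpace 𝓘(ℝ, E) x →L[ℝ] ℝ)
          (trivializationAt (E →L[ℝ] E →L[ℝ] ℝ)
          (fun x : X => TangentSpace 𝓘(ℝ, E) x →L[ℝ] TangentSpace 𝓘(ℝ, E) x →L[ℝ] ℝ) a)
          (chartAt E a).open_source (fun y hy => by
            rw [hom_trivializationAt_baseSet, hom_trivializationAt_baseSet]
            exact ⟨hy, hy, mem_univ _⟩)).2 ?_
        refine (contMDiffOn_const (c := h₀)).congr fun y hy => ?_
        ext v w
        have h3 : ∀ u, T y ((trivializationAt E (TangentSpace 𝓘(ℝ, E) : X → Type) a).symm y u) =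
            u := fun u => by
          have h9 := (trivializationAt E (TangentSpace 𝓘(ℝ, E) : X → Type)
            a).continuousLinearMapAt_symmL (R := ℝ) hy u
          rwa [Bundle.Trivialization.symmL_apply _ hy] at h9
        refine (inCoordinates_apply_eq₂ (F₁ := E) (F₂ := E) (F₃ := ℝ)
          (E₁ := (TangentSpace 𝓘(ℝ, E) : X → Type)) (E₂ := (TangentSpace 𝓘(ℝ, E) : X → Type))
          (E₃ := Bundle.Trivial X ℝ) hy hy (mem_univ _)).trans ?_
        refine Eq.trans ?_ (congrArg₂ (fun p q => h₀ p q) (h3 v) (h3 w))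
        simp
        rfl
      · have h5 := (trivializationAt E (TangentSpace 𝓘(ℝ, E) : X → Type)
          a).symmL_continuousLinearMapAt (R := ℝ) hy v
        rw [← h5]
        exact (congrArg _ h4).trans (map_zero _)
      · have h7 : T y = tangentCoordChange 𝓘(ℝ, E) y a y :=
          TangentBundle.continuousLinearMapAt_trivializationAt_eq_core (I := 𝓘(ℝ, E)) hy
        change h₀ (T y (j v)) (T y (j w)) = h₀ (T y v) (T y w)
        rw [h7, hT a y hy, hT a y hy, hJ])
  exact ⟨⟨fun x => s x, fun x => (hs x).1, fun x => (hs x).2.1,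
    fun x => bdd_of_pos (E := E) (s x) (hs x).2.1, s.contMDiff⟩, fun x => (hs x).2.2⟩

end Real

variable {E : Type} [NormedAddCommGroup E] [NormedSpace ℂ E]
  {X : Type} [TopologicalSpace X] [ChartedSpace E X]

variable [IsManifold 𝓘(ℂ, E) ω X]

attribute [local instance] realManifold

theorem tcc_J {a y : X} (hy : y ∈ (chartAt E a).source) (v : E) :
    tangentCoordChange 𝓘(ℝ, E) y a y (Complex.I • v) =
      Complex.I • tangentCoordChange 𝓘(ℝ, E) y a y v := by
  have h1 := hasFDerivWithinAt_tangentCoordChange (I := 𝓘(ℝ, E)) (x := y) (y := a) (z := y)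
    (by simp [hy])
  have h2 := (hasFDerivWithinAt_tangentCoordChange (I := 𝓘(ℂ, E)) (x := y) (y := a) (z := y)
    (by simp [hy])).restrictScalars ℝ
  simp only [mfld_simps, hasFDerivWithinAt_univ] at h1 h2
  rw [h1.unique h2]
  simp

variable (E X) in
theorem herm [FiniteDimensional ℂ E] [T2Space X] [CompactSpace X] :
    ∃ g : Met E X, IsHermitian g := by
  have hf : FiniteDimensional ℝ E := inferInstance
  let L : E ≃L[ℂ] EuclideanSpace ℂ (Fin (Module.finrank ℂ E)) :=
    ContinuousLinearEquiv.ofFinrankEq (by simp)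
  let L' : E →L[ℝ] EuclideanSpace ℂ (Fin (Module.finrank ℂ E)) :=
    (L : E →L[ℂ] EuclideanSpace ℂ (Fin (Module.finrank ℂ E))).restrictScalars ℝ
  let h₀ : E →L[ℝ] E →L[ℝ] ℝ := (innerSL ℝ).bilinearComp L' L'
  have e₀ : ∀ v w, h₀ v w = inner ℝ (L v) (L w) := fun v w => rfl
  refine exists_inv (fun v : E => Complex.I • v) h₀ (fun v w => real_inner_comm (L w) (L v))
    (fun v hv => ?_) (fun v w => ?_) fun a y hy v => tcc_J hy v
  · rw [e₀, real_inner_self_pos]
    exact fun h => hv (L.injective (h.trans (map_zero L).symm))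
  · rw [e₀, e₀, map_smul, map_smul, PiLp.inner_apply, PiLp.inner_apply]
    refine Finset.sum_congr rfl fun i _ => ?_
    simp [Complex.inner]

open Bundle in
theorem continuous_dist' [RegularSpace X] (g : Met E X) :
    Continuous fun p : X × X => P290L.dist g p.1 p.2 := by
  letI : RiemannianBundle (TangentSpace 𝓘(ℝ, E) : X → Type) := ⟨g.toRiemannianMetric⟩
  haveI : IsContinuousRiemannianBundle E (TangentSpace 𝓘(ℝ, E) : X → Type) :=
    ⟨g.inner, g.contMDiff.continuous, fun _ _ _ => rfl⟩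
  letI : PseudoEMetricSpace X := PseudoEMetricSpace.ofRiemannianMetric 𝓘(ℝ, E) X
  exact continuous_edist

open Bundle in
theorem dist_self' (g : Met E X) (x : X) : P290L.dist g x x = 0 := by
  letI : RiemannianBundle (TangentSpace 𝓘(ℝ, E) : X → Type) := ⟨g.toRiemannianMetric⟩
  exact Manifold.riemannianEDist_self

end

end Vale.Agent.P290K89
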